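import Vale.Agent.P144U.Cls.Defs
import Vale.Agent.P144E.An4a.Lev
import Vale.Agent.P144E.An4b.Main

/-!
The dug sets belong to the class of the flow.
-/

namespace Vale.Agent.P144Z

open Finset Matrix

theorem Uni.mono {M : ℕ} {I : Finset (Tor M)} {N K K' r r' : ℕ} (h : Uni I N K K' r)
    (hr : r' ≤ r) : Uni I N K K' r' :=
  ⟨h.one, fun f hf => (h.esc f hf).imp fun _ k => ⟨hr.trans k.1, k.2⟩, h.thk,
    fun y => (h.tr y).mono' hr le_rfl, fun b hb s h1 h2 => h.win b hb s h1 (h2.trans hr)⟩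

theorem ShapeU.mono {M : ℕ} [NeZero M] {I Tp Tc : Finset (Tor M)} {κ κ' : ℝ}
    {N K K' K₀ r₀ N₁ r r' : ℕ} (h : ShapeU I Tp Tc κ N K K' K₀ r₀ N₁ r) (hκ : κ ≤ κ')
    (hr : r' ≤ r) : ShapeU I Tp Tc κ' N K K' K₀ r₀ N₁ r' :=
  ⟨h.small.mono hκ le_rfl, h.uni.mono hr, h.rgh.mono hr,
    fun p hp p' hp' e => hr.trans_lt (h.sep p hp p' hp' e),
    fun y ρ h1 h2 => (h.far y ρ (h1.trans hr) h2).mono hκ le_rfl⟩

/-- The covering of the boundary at an intermediate scale, near a point with good charts. -/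
theorem levU : ∃ c : ℝ, 1 ≤ c ∧ ∀ η > (0 : ℝ), ∃ n₂ a₀ : ℕ, ∀ a ≥ a₀, ∃ κ > (0 : ℝ),
    ∀ (M : ℕ) [NeZero M] (R : Reg M) (B : Gauge M) (r ℓ : ℕ), IsSign B → FlatB R.In B r →
    4 * r ≤ M → a ≤ ℓ → 16 * (a * ℓ) ≤ r → ∀ z,
    (∀ b, tdist b z ≤ 4 * (a * ℓ) → ShapeAt R.In 1 κ (8 * (a * ℓ)) b) →
      ∃ Z₁ Z₂ : Finset (Tor M), Z₁.card ≤ 234 * a ∧ Z₂.card ≤ n₂ ∧
        (∀ b ∈ Z₁, NearB R.In 1 b ∧ RkA (R.pw * B) ℓ (a * ℓ) (11 * ℓ) c η b) ∧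
        ∀ x, tdist x z ≤ a * ℓ → NearB R.In 1 x → ∃ y ∈ Z₁ ∪ Z₂, tdist x y ≤ ℓ := by
  have hα : (0 : ℝ) < 1 := one_pos
  obtain ⟨c₂, hc₂, hS⟩ := dec_solv 1 hα
  obtain ⟨c₃, hc₃, hK⟩ := rk_of c₂ hc₂
  refine ⟨c₃, hc₃, fun η hη => ?_⟩
  have hη' : 0 < η / c₃ := by positivity
  obtain ⟨K, K', hR⟩ := B5d.rank hom_rank conn_of_shape hα hη'
  obtain ⟨L₁, hK⟩ := hK _ hη' K'
  obtain ⟨n₂, L₂, hV⟩ := An4a.cover_at hα K
  refine ⟨n₂, L₁ + L₂ + K' + 11, fun a ha => ?_⟩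
  obtain ⟨κ₁, hκ₁, hS⟩ := hS a
  obtain ⟨κ₂, hκ₂, hV⟩ := hV a (by omega)
  obtain ⟨κ, hκ, k1, k2, k4⟩ : ∃ κ > 0, κ ≤ κ₁ ∧ κ ≤ κ₂ ∧ κ ≤ 1 / 16 := by
    refine ⟨min κ₁ (min κ₂ (1 / 16)), by positivity, ?_⟩
    simp only [← le_min_iff, le_refl]
  refine ⟨κ, hκ, fun M _ R B r ℓ hB hF hM hl hr z hsh => ?_⟩
  have hl1 : L₁ * ℓ ≤ a * ℓ := Nat.mul_le_mul_right _ (by omega)
  have hlK : K' * ℓ ≤ a * ℓ := Nat.mul_le_mul_right _ (by omega)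
  have hl11 : 11 * ℓ ≤ a * ℓ := Nat.mul_le_mul_right _ (by omega)
  have hla : a * ℓ ≤ a * (11 * ℓ) := Nat.mul_le_mul_left _ (by omega)
  obtain ⟨Z₁, Z₂, z1, z2, z3, z4⟩ := hV M R.In (8 * (a * ℓ)) ℓ z
    ((hsh z (by rw [tdist_self]; exact Nat.zero_le _)).mono k2 le_rfl) hl le_rfl
  refine ⟨Z₁, Z₂, z1, z2, fun b hb => ?_, fun x hx hn => z4 x (by omega) hn⟩
  obtain ⟨hbz, hnb, ν, w₀, hν, hw, hKw, ho, hi⟩ := z3 b hb
  have hb' := hsh b hbz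
  have hfl : Flat B b (2 * (a * ℓ) + 8) := hF b 1 _ hnb (by omega)
  obtain ⟨d1, d2⟩ := hS M R B (8 * (a * ℓ)) b hB (hb'.mono k1 le_rfl) (by omega) hnb.2 (11 * ℓ)
    (a * ℓ) (by omega) hla (by omega) hfl
  obtain ⟨ρ, r1, r2, r3⟩ := hR M R B κ (8 * (a * ℓ)) ℓ b ν w₀ hB hb' (by linarith) (by omega)
    (by omega) (by omega) (fun g hg => hfl g (by omega)) hν hw hKw ho hi
  have := hK M (R.pw * B) b ℓ ρ (a * ℓ) (by omega) r1 r2 hl1 d1 d2 r3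
  rw [mul_div_cancel₀ _ (by positivity)] at this
  exact ⟨hnb, this⟩

open A4b in
theorem clsU_of (hW : BdStmtW) (hF : FlatW) (hS : ShrU) : ClsU := by
  intro N
  obtain ⟨K, hK, hS⟩ := hS N
  refine ⟨K, hK, fun K' => ?_⟩
  obtain ⟨c₂, β, hc₂, hβ, hβ', Q, hS⟩ := hS K'
  obtain ⟨c₁, hc₁, hL⟩ := levU
  obtain ⟨c₃, hc₃, hD⟩ := B5d.deep deep_est
  obtain ⟨Qb, hW⟩ := hW (1 / 8) (by norm_num) N
  obtain ⟨Q', hQ'⟩ : ∃ Q', Q' = Qb + 2 * Q + 40 := ⟨_, rfl⟩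
  refine ⟨Q', by omega, fun ε hε => ?_⟩
  obtain ⟨Lb, hW⟩ := hW ε hε
  obtain ⟨η, hη, hη', hηε⟩ : ∃ η : ℝ, 0 < η ∧ η ≤ 1 ∧
      243 * (1089 * (2 * (234 : ℕ) * c₁ * c₂ ^ 2)) * η ≤ ε := by
    have h0 : 0 ≤ 243 * (1089 * (2 * (234 : ℕ) * c₁ * c₂ ^ 2)) := by positivity
    generalize 243 * (1089 * (2 * ((234 : ℕ) : ℝ) * c₁ * c₂ ^ 2)) = X at h0
    refine ⟨ε / (X + ε), by positivity, div_le_one_of_le₀ (by linarith) (by positivity), ?_⟩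
    rw [mul_div_assoc', div_le_iff₀ (by positivity)]
    nlinarith
  obtain ⟨n₂, a₀, hL⟩ := hL η hη
  obtain ⟨L₀, hL₀⟩ := consts hc₁ hc₂ hc₃ hβ (by linarith) hε (1089 * n₂)
  refine ⟨Lb + L₀ + 2 * a₀ + 8, fun L hL' => ?_⟩
  obtain ⟨κb, hκb, hW⟩ := hW L (by omega)
  obtain ⟨a, ha⟩ : ∃ a, a = L / 2 := ⟨_, rfl⟩
  obtain ⟨κl, hκl, hL⟩ := hL a (by omega)
  refine ⟨min κb κl, by positivity, fun K₀ => ⟨K₀ * (8 + Q') + 9, fun k hk N₁ M _ R Tp Tc B r J hI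
    hB hM hJ hr => ?_⟩⟩
  have L1 : 1 ≤ L := by omega
  obtain ⟨c, hc⟩ : ∃ c, c = 2 * c₁ * c₂ * √(L / (L : ℝ) ^ β) := ⟨_, rfl⟩
  obtain ⟨c1, c2, -, c3, c5, c6⟩ := hL₀ L (by omega) 0 L1 c hc
  have q1 : Q' * sc L J = Qb * sc L J + 2 * (Q * sc L J) + 40 * sc L J := by rw [hQ']; ring
  have q2 : Qb * sc L k ≤ Q' * sc L k := Nat.mul_le_mul_right _ (by omega)
  refine ⟨Tp, fun p hp p' hp' e => lt_of_le_of_lt (by omega) (hI.sep p hp p' hp' e),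
    hW M R Tc B _ k (hI.small.mono (min_le_left _ _) le_rfl) (hB.mono (by omega)) (by omega) hk q2,
    c, c1, c2, fun j hkj hj => ?_⟩
  have hFB : FlatB R.In B (r / 2) := fun z d ρ h1 h2 =>
    hF M R B N₁ r hI.rgh hB z d ρ h1 (by omega)
  have hU := hI.uni.mono (Nat.div_le_self r 2)
  have hB' : Str R.pw B (r / 2) := hB.mono (Nat.div_le_self r 2)
  have j1 : L * sc L j ≤ sc L J := by rw [← FM.sc_succ]; exact FM.sc_mono L1 hj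
  have j2 : Q * (L * sc L j) ≤ Q * sc L J := Nat.mul_le_mul_left _ j1
  have j3 : Q' * sc L k ≤ Q' * sc L j := Nat.mul_le_mul_left _ (FM.sc_mono L1 hkj)
  have l1 : 1 ≤ sc L j := Nat.mul_pos (by norm_num) (Nat.pow_pos L1)
  have sch : ∀ z, (∃ f, tdist f z ≤ (L * sc L j : ℕ) ∧ |flux (R.pw * B) f| ≠ 1) →
      RN.Shr (R.pw * B) (sc L j) (L * sc L j) z (c * √((sc L j : ℝ) / (L * sc L j : ℕ))) := by
    rintro z ⟨f, hf, hf'⟩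
    obtain ⟨f', h1, h2⟩ := out_of_flux hB.sign hf'
    have := tdist_triangle f' f z
    exact sch_of hc₁ L1 l1 hc (hS M R B _ hU hB' hFB (by omega) _ _ l1
      (Nat.le_mul_of_pos_left _ L1) (by omega) z ⟨f', h1, by omega⟩)
  have l2 : 4 * L ≤ 4 * L ^ j := Nat.mul_le_mul_left 4 (Nat.le_self_pow (by omega) L)
  have l3 : sc L j = 2 * (4 * L ^ j) := by
    unfold sc
    ring
  rw [l3] at j1 j2 j3 sch ⊢
  generalize 4 * L ^ j = ℓ at j1 j2 j3 sch l2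
  have b3 : a * (2 * ℓ) ≤ L * ℓ :=
    (le_of_eq (by ring)).trans (Nat.mul_le_mul_right ℓ (by omega : 2 * a ≤ L))
  have b4 : L * (2 * ℓ) = 2 * (L * ℓ) := by ring
  have b5 : L * (2 * ℓ) ≤ 4 * (a * (2 * ℓ)) :=
    (Nat.mul_le_mul_right _ (by omega : L ≤ 4 * a)).trans (le_of_eq (by ring))
  have b6 : Q * (L * ℓ) ≤ Q * (L * (2 * ℓ)) := Nat.mul_le_mul_left _ (by omega)
  have b7 : 2 * ℓ ≤ a * (2 * ℓ) := Nat.le_mul_of_pos_left _ (by omega)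
  refine ⟨c₃ / (L : ℝ) ^ 2, 1089 * (2 * (234 : ℕ) * c₁ * c₂ ^ 2 * η * L), 1089 * n₂ * (0 + 1),
    by positivity, c5, by positivity, loss_pos L1 c6
      (by linarith [mul_le_mul_of_nonneg_right hηε (Nat.cast_nonneg (α := ℝ) L)]) c3, sch,
    fun z hz => ?_⟩
  refine cov_of (G := Gd (R.pw * B) (2 * ℓ) (L * (2 * ℓ)) c) hB.sign (by omega) (by omega)
    (by omega) (fun x => hD M R B r hB x L _ (by omega) (by omega)) ?_
  have h1 := level (Tp := Tp) (N := K₀ * (8 + Q') + 4) hc₁ hc₂ (by linarith) hη hη' (by omega)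
    (by omega : 2 * a ≤ L) (by omega : 1 ≤ ℓ) hc
    (fun y hy => hL M R B (r / 2) (2 * ℓ) hB.sign hFB (by omega) (by omega) (by omega) y
      fun b hb => (hI.far b _ (by omega) fun p hp => by
        have t1 := hy p hp
        have t2 := tdist_triangle y b p
        have t3 : K₀ * (8 * (a * (2 * ℓ)) + Q' * sc L k) ≤ K₀ * ((8 + Q') * (a * (2 * ℓ))) := by
          refine Nat.mul_le_mul_left _ ?_
          have := Nat.mul_le_mul_left Q' b7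
          rw [add_mul]
          omega
        rw [tdist_comm y b] at t2
        rw [add_mul, mul_assoc] at t1
        omega).mono (min_le_right _ _) le_rfl)
    (hS M R B _ hU hB' hFB (by omega) _ _ (by omega) b3 (by omega))
  refine (shell Gd.nonneg (by omega) (by positivity) h1 z 16).mono
    (fun x hx => ⟨by omega, hx.2, fun p hp => ?_⟩) ?_ (by omega)
  · have t1 := hz p hp
    have t2 := tdist_triangle z x p
    have t3 := hx.1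
    have t4 : (K₀ * (8 + Q') + 4 + 1) * (a * (2 * ℓ)) ≤ (K₀ * (8 + Q') + 4 + 1) * (L * (2 * ℓ)) :=
      Nat.mul_le_mul_left _ (by omega)
    rw [tdist_comm z x] at t2
    have t5 : (K₀ * (8 + Q') + 9) * (L * (2 * ℓ)) =
        (K₀ * (8 + Q') + 4 + 1) * (L * (2 * ℓ)) + 4 * (L * (2 * ℓ)) := by ring
    omega
  · have h6 : (2 * a / (L : ℝ)) ^ β ≤ 1 := by
      refine Real.rpow_le_one (by positivity) (div_le_one_of_le₀ ?_ (Nat.cast_nonneg _)) hβ.le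
      exact_mod_cast (by omega : 2 * a ≤ L)
    have h7 : (((2 * 16 + 1) ^ 2 : ℕ) : ℝ) = 1089 := by norm_num
    rw [h7]
    exact mul_le_mul_of_nonneg_left (mul_le_of_le_one_right (by positivity) h6) (by norm_num)

end Vale.Agent.P144Z
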