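import Vale.Agent.P144U.Defs
import Vale.Agent.P144U.Rg.Defs

/-!
Constants independent of the angles: the class of the dug sets.
-/

namespace Vale.Agent.P144Z

open Finset Matrix

/-- The dug sets belong to the class of the flow. -/
def ClsU : Prop :=
  ∀ N : ℕ, ∃ K ≥ 1, ∀ K' : ℕ, ∃ Q ≥ 1, ∀ ε > (0 : ℝ), ∃ L₀ : ℕ, ∀ L ≥ L₀, ∃ κ > (0 : ℝ),
    ∀ K₀ : ℕ, ∃ N' : ℕ, ∀ k, 1 ≤ k → ∀ (N₁ M : ℕ) [NeZero M] (R : Reg M) (Tp Tc : Finset (Tor M))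
    (B : Gauge M) (r J : ℕ), ShapeU R.In Tp Tc κ N K K' K₀ (Q * sc L k) N₁ r → Str R.pw B r →
    4 * r ≤ M → Q * sc L J ≤ r → Q * sc L k + 4 * N₁ + 8 ≤ r → QU L ε k N' M (R.pw * B) J

end Vale.Agent.P144Z
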